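import Vale.Agent.P337T.Defs
import Vale.Agent.P337T.Final

namespace Vale.Agent.Results.P337.AInCH

open Vale.Agent.P337T

/-- The existential theory of the reals lies in the counting hierarchy, and the class `∃ℝ` is
contained in one fixed level of the counting hierarchy. -/
theorem result : ETR ∈ CH ∧ ∃ j : ℕ, ExistsR ⊆ C j :=
  ⟨ETR_mem_CH, exists_existsR_subset⟩

end Vale.Agent.Results.P337.AInCH
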